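import Mathlib

/-! The straight-line crossing lemma (model independent). -/

namespace Vale.Agent.P065.UB350

open Finset

/-- orientation determinant of three points -/
noncomputable def det3 (p q r : ℝ × ℝ) : ℝ :=
  (q.1 - p.1) * (r.2 - p.2) - (q.2 - p.2) * (r.1 - p.1)

/-- no three points of `V` are collinear -/
def GP (V : Finset (ℝ × ℝ)) : Prop :=
  ∀ p ∈ V, ∀ q ∈ V, ∀ r ∈ V, p ≠ q → q ≠ r → p ≠ r → det3 p q r ≠ 0

/-- slope of an edge `e = (left end, right end)` -/
noncomputable def sl (e : (ℝ × ℝ) × (ℝ × ℝ)) : ℝ := (e.2.2 - e.1.2) / (e.2.1 - e.1.1)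

/-- height of the supporting line of `e` at abscissa `x` -/
noncomputable def yv (e : (ℝ × ℝ) × (ℝ × ℝ)) (x : ℝ) : ℝ := e.1.2 + sl e * (x - e.1.1)

/-- `E` is a set of edges (left end first) with ends in `V` -/
def EdgeSet (V : Finset (ℝ × ℝ)) (E : Finset ((ℝ × ℝ) × (ℝ × ℝ))) : Prop :=
  ∀ e ∈ E, e.1 ∈ V ∧ e.2 ∈ V ∧ e.1.1 < e.2.1

/-- the two segments have a common point which is interior to both -/
def Cr (e f : (ℝ × ℝ) × (ℝ × ℝ)) : Prop :=
  ∃ x, e.1.1 < x ∧ x < e.2.1 ∧ f.1.1 < x ∧ x < f.2.1 ∧ yv e x = yv f x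

lemma Cr.symm {e f : (ℝ × ℝ) × (ℝ × ℝ)} (h : Cr e f) : Cr f e := by
  obtain ⟨x, h1, h2, h3, h4, h5⟩ := h
  exact ⟨x, h3, h4, h1, h2, h5.symm⟩

lemma yv_left (e : (ℝ × ℝ) × (ℝ × ℝ)) : yv e e.1.1 = e.1.2 := by simp [yv]

lemma yv_right {e : (ℝ × ℝ) × (ℝ × ℝ)} (h : e.1.1 < e.2.1) : yv e e.2.1 = e.2.2 := by
  have : e.2.1 - e.1.1 ≠ 0 := (sub_pos.2 h).ne'
  unfold yv sl
  field_simp
  ring

lemma yv_cont (e : (ℝ × ℝ) × (ℝ × ℝ)) : Continuous (yv e) := by
  unfold yv; fun_prop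

/-- order at `x0` is inherited by the left end of the common interval -/
lemma left_le {e f : (ℝ × ℝ) × (ℝ × ℝ)} {a x0 : ℝ} (hc : ¬ Cr e f) (h1 : e.1.1 ≤ a)
    (h2 : f.1.1 ≤ a) (hax : a < x0) (h3 : x0 < e.2.1) (h4 : x0 < f.2.1)
    (h : yv e x0 < yv f x0) : yv e a ≤ yv f a := by
  by_contra hlt
  push Not at hlt
  have hcont : ContinuousOn (fun x => yv f x - yv e x) (Set.Icc a x0) :=
    ((yv_cont f).sub (yv_cont e)).continuousOn
  have hmem : (0 : ℝ) ∈ Set.Ioo (yv f a - yv e a) (yv f x0 - yv e x0) :=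
    ⟨by linarith, by linarith⟩
  obtain ⟨x, ⟨hx1, hx2⟩, hx⟩ := intermediate_value_Ioo hax.le hcont hmem
  exact hc ⟨x, by linarith, by linarith, by linarith, by linarith, by
    have : yv f x - yv e x = 0 := hx
    linarith⟩

/-- no crossing pair -/
def NoCross (E : Finset ((ℝ × ℝ) × (ℝ × ℝ))) : Prop :=
  ∀ e ∈ E, ∀ f ∈ E, e ≠ f → ¬ Cr e f

/-- `f` is a right-going edge at the same left end with larger slope -/
def Above (E : Finset ((ℝ × ℝ) × (ℝ × ℝ))) (e f : (ℝ × ℝ) × (ℝ × ℝ)) : Prop :=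
  f ∈ E ∧ f.1 = e.1 ∧ sl e < sl f

/-- `f` is the next edge above `e` -/
def Next (E : Finset ((ℝ × ℝ) × (ℝ × ℝ))) (e f : (ℝ × ℝ) × (ℝ × ℝ)) : Prop :=
  Above E e f ∧ ∀ g, Above E e g → sl f ≤ sl g

lemma exists_next {E : Finset ((ℝ × ℝ) × (ℝ × ℝ))} {e f : (ℝ × ℝ) × (ℝ × ℝ)}
    (h : Above E e f) : ∃ g, Next E e g := by
  classical
  obtain ⟨g, hg, hmin⟩ := (E.filter (fun g => Above E e g)).exists_min_image sl
    ⟨f, by simp only [mem_filter]; exact ⟨h.1, h⟩⟩
  refine ⟨g, (mem_filter.1 hg).2, fun k hk => hmin k ?_⟩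
  simp only [mem_filter]
  exact ⟨hk.1, hk⟩

/-- `u` is a vertex of the closed wedge between `e` and `f` -/
def InW (V : Finset (ℝ × ℝ)) (e f : (ℝ × ℝ) × (ℝ × ℝ)) (u : ℝ × ℝ) : Prop :=
  u ∈ V ∧ e.1.1 < u.1 ∧ u.1 ≤ e.2.1 ∧ u.1 ≤ f.2.1 ∧ yv e u.1 ≤ u.2 ∧ u.2 ≤ yv f u.1

/-- first vertex of the wedge -/
def FirstW (V : Finset (ℝ × ℝ)) (e f : (ℝ × ℝ) × (ℝ × ℝ)) (u : ℝ × ℝ) : Prop :=
  InW V e f u ∧ ∀ w, InW V e f w → u.1 ≤ w.1

lemma yv_lt_of {e f : (ℝ × ℝ) × (ℝ × ℝ)} (h1 : f.1 = e.1) (h : sl e < sl f) {x : ℝ}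
    (hx : e.1.1 < x) : yv e x < yv f x := by
  unfold yv
  rw [h1]
  have : sl e * (x - e.1.1) < sl f * (x - e.1.1) :=
    mul_lt_mul_of_pos_right h (by linarith)
  linarith

lemma sl_lt_of {e f : (ℝ × ℝ) × (ℝ × ℝ)} (h1 : f.1 = e.1) {x : ℝ}
    (hx : e.1.1 < x) (h : yv e x < yv f x) : sl e < sl f := by
  unfold yv at h
  rw [h1] at h
  have h2 : sl e * (x - e.1.1) < sl f * (x - e.1.1) := by linarith
  exact lt_of_mul_lt_mul_right h2 (by linarith)

lemma exists_first {V : Finset (ℝ × ℝ)} {E : Finset ((ℝ × ℝ) × (ℝ × ℝ))}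
    (hE : EdgeSet V E) {e f : (ℝ × ℝ) × (ℝ × ℝ)} (he : e ∈ E) (hf : Next E e f) :
    ∃ u, FirstW V e f u := by
  classical
  have hfE := hf.1.1
  have h1 := hE e he
  have h2 := hE f hfE
  have hne : (V.filter (fun u => InW V e f u)).Nonempty := by
    rcases le_total e.2.1 f.2.1 with h | h
    · refine ⟨e.2, ?_⟩
      simp only [mem_filter]
      refine ⟨h1.2.1, h1.2.1, h1.2.2, le_rfl, h, (yv_right h1.2.2).le, ?_⟩
      rw [← yv_right h1.2.2]
      exact (yv_lt_of hf.1.2.1 hf.1.2.2 h1.2.2).le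
    · refine ⟨f.2, ?_⟩
      simp only [mem_filter]
      have h3 : e.1.1 < f.2.1 := by rw [← hf.1.2.1]; exact h2.2.2
      refine ⟨h2.2.1, h2.2.1, h3, h, le_rfl, ?_, (yv_right h2.2.2).ge⟩
      rw [← yv_right h2.2.2]
      exact (yv_lt_of hf.1.2.1 hf.1.2.2 h3).le
  obtain ⟨u, hu, hmin⟩ := (V.filter (fun u => InW V e f u)).exists_min_image Prod.fst hne
  refine ⟨u, (mem_filter.1 hu).2, fun w hw => hmin w ?_⟩
  simp only [mem_filter]
  exact ⟨hw.1, hw⟩

/-- the main point: the wedge is determined by its first vertex and the side -/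
lemma wedge_inj_aux {V : Finset (ℝ × ℝ)} {E : Finset ((ℝ × ℝ) × (ℝ × ℝ))}
    (hE : EdgeSet V E) (hN : NoCross E) {e e' f f' : (ℝ × ℝ) × (ℝ × ℝ)} (he : e ∈ E)
    (he' : e' ∈ E) (hf : Next E e f) (hf' : Next E e' f') {u : ℝ × ℝ}
    (hu : FirstW V e f u) (hu' : FirstW V e' f' u)
    (hb1 : yv e u.1 < yv f' u.1) (hb2 : yv e' u.1 < yv f u.1) (hle : e.1.1 ≤ e'.1.1) :
    e = e' := by
  have hfE := hf.1.1
  have hf'E := hf'.1.1
  have hfl : f.1 = e.1 := hf.1.2.1
  have hf'l : f'.1 = e'.1 := hf'.1.2.1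
  obtain ⟨x0, hx0⟩ : ∃ x0, ((yv e x0 < yv f' x0 ∧ yv e' x0 < yv f x0) ∧ e'.1.1 < x0) ∧
      x0 < u.1 := by
    have c1 : ∀ᶠ x in nhdsWithin u.1 (Set.Iio u.1), yv e x < yv f' x :=
      nhdsWithin_le_nhds
        ((yv_cont e).continuousAt.eventually_lt (yv_cont f').continuousAt hb1)
    have c2 : ∀ᶠ x in nhdsWithin u.1 (Set.Iio u.1), yv e' x < yv f x :=
      nhdsWithin_le_nhds
        ((yv_cont e').continuousAt.eventually_lt (yv_cont f).continuousAt hb2)
    have c3 : ∀ᶠ x in nhdsWithin u.1 (Set.Iio u.1), e'.1.1 < x :=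
      nhdsWithin_le_nhds (eventually_gt_nhds hu'.1.2.1)
    have c4 : ∀ᶠ x in nhdsWithin u.1 (Set.Iio u.1), x < u.1 := self_mem_nhdsWithin
    exact (((c1.and c2).and c3).and c4).exists
  obtain ⟨⟨⟨hx1, hx2⟩, hx3⟩, hx4⟩ := hx0
  have r1 : x0 < e.2.1 := lt_of_lt_of_le hx4 hu.1.2.2.1
  have r2 : x0 < f.2.1 := lt_of_lt_of_le hx4 hu.1.2.2.2.1
  have r3 : x0 < e'.2.1 := lt_of_lt_of_le hx4 hu'.1.2.2.1
  have r4 : x0 < f'.2.1 := lt_of_lt_of_le hx4 hu'.1.2.2.2.1
  have hex0 : e.1.1 < x0 := lt_of_le_of_lt hle hx3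
  have hf1 : f.1.1 = e.1.1 := by rw [hfl]
  have hf'1 : f'.1.1 = e'.1.1 := by rw [hf'l]
  rcases lt_trichotomy (yv e x0) (yv e' x0) with hlt | heq | hgt
  · -- e' strictly inside the wedge (e, f) at x0
    exfalso
    have hne1 : e ≠ e' := fun h => by rw [h] at hlt; exact lt_irrefl _ hlt
    have hne2 : e' ≠ f := fun h => by rw [h] at hx2; exact lt_irrefl _ hx2
    have a1 : yv e e'.1.1 ≤ yv e' e'.1.1 :=
      left_le (hN e he e' he' hne1) hle le_rfl hx3 r1 r3 hlt
    have a2 : yv e' e'.1.1 ≤ yv f e'.1.1 :=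
      left_le (hN e' he' f hfE hne2) le_rfl (by rw [hf1]; exact hle) hx3 r3 r2 hx2
    rw [yv_left] at a1 a2
    rcases hle.lt_or_eq with hl | hl
    · have hin : InW V e f e'.1 :=
        ⟨(hE e' he').1, hl, by linarith, by linarith, a1, a2⟩
      have := hu.2 _ hin
      have := hu'.1.2.1
      linarith
    · have b1 : yv e e'.1.1 = e.1.2 := by rw [← hl, yv_left]
      have b2 : yv f e'.1.1 = e.1.2 := by rw [← hl, ← hf1, yv_left, hfl]
      have hv : e'.1 = e.1 := by
        apply Prod.ext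
        · exact hl.symm
        · linarith
      have s1 : sl e < sl e' := sl_lt_of hv hex0 hlt
      have s2 : sl e' < sl f := sl_lt_of (by rw [hfl, hv]) hx3 hx2
      have := hf.2 e' ⟨he', hv, s1⟩
      linarith
  · by_contra hne
    exact hN e he e' he' hne ⟨x0, hex0, r1, hx3, r3, heq⟩
  · exfalso
    have hne1 : e' ≠ e := fun h => by rw [h] at hgt; exact lt_irrefl _ hgt
    have hne2 : e ≠ f' := fun h => by rw [h] at hx1; exact lt_irrefl _ hx1
    have a1 : yv e' e'.1.1 ≤ yv e e'.1.1 :=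
      left_le (hN e' he' e he hne1) le_rfl hle hx3 r3 r1 hgt
    have a2 : yv e e'.1.1 ≤ yv f' e'.1.1 :=
      left_le (hN e he f' hf'E hne2) hle (by rw [hf'1]) hx3 r1 r4 hx1
    rw [yv_left] at a1
    have a3 : yv f' e'.1.1 = e'.1.2 := by rw [← hf'1, yv_left, hf'l]
    rw [a3] at a2
    rcases hle.lt_or_eq with hl | hl
    · have hin : InW V e f e'.1 :=
        ⟨(hE e' he').1, hl, by linarith, by linarith, a2, by
          have := yv_lt_of hfl hf.1.2.2 hl
          linarith⟩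
      have := hu.2 _ hin
      have := hu'.1.2.1
      linarith
    · have b1 : yv e e'.1.1 = e.1.2 := by rw [← hl, yv_left]
      have hv : e.1 = e'.1 := by
        apply Prod.ext
        · exact hl
        · linarith
      have s1 : sl e' < sl e := sl_lt_of hv hx3 hgt
      have s2 : sl e < sl f' := sl_lt_of (by rw [hf'l, hv]) hex0 hx1
      have := hf'.2 e ⟨he, hv, s1⟩
      linarith

/-- straight-line planar graphs have at most `3 |V|` edges -/
theorem planar (V : Finset (ℝ × ℝ)) (E : Finset ((ℝ × ℝ) × (ℝ × ℝ)))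
    (hE : EdgeSet V E) (hN : NoCross E) : E.card ≤ 3 * V.card := by
  classical
  set T := E.filter (fun e => ¬ ∃ f, Above E e f) with hT
  set B := E.filter (fun e => ∃ f, Above E e f) with hB
  have hcard : E.card = B.card + T.card := by
    rw [hT, hB, Finset.card_filter_add_card_filter_not]
  have hTc : T.card ≤ V.card := by
    apply Finset.card_le_card_of_injOn Prod.fst
    · intro e he
      exact (hE e (mem_filter.1 (Finset.mem_coe.1 he)).1).1
    · intro e he f hf hef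
      have he' := mem_filter.1 (Finset.mem_coe.1 he)
      have hf' := mem_filter.1 (Finset.mem_coe.1 hf)
      have hs : sl e = sl f := by
        rcases lt_trichotomy (sl e) (sl f) with h | h | h
        · exact absurd ⟨f, hf'.1, hef.symm, h⟩ he'.2
        · exact h
        · exact absurd ⟨e, he'.1, hef, h⟩ hf'.2
      by_contra hne
      have h1 := (hE e he'.1).2.2
      have h2 := (hE f hf'.1).2.2
      have hef1 : e.1.1 = f.1.1 := by rw [hef]
      apply hN e he'.1 f hf'.1 hne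
      obtain ⟨x, hx1, hx2⟩ := exists_between (lt_min h1 (show e.1.1 < f.2.1 by
        rw [hef1]; exact h2))
      have hx3 := hx2.trans_le (min_le_left _ _)
      have hx4 := hx2.trans_le (min_le_right _ _)
      refine ⟨x, hx1, hx3, by rw [← hef1]; exact hx1, hx4, ?_⟩
      unfold yv
      rw [hs, hef]
  have hBc : B.card ≤ 2 * V.card := by
    have hnx : ∀ e ∈ B, ∃ f u, Next E e f ∧ FirstW V e f u := by
      intro e he
      obtain ⟨heE, f, hf⟩ := mem_filter.1 he
      obtain ⟨g, hg⟩ := exists_next hf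
      obtain ⟨u, hu⟩ := exists_first hE heE hg
      exact ⟨g, u, hg, hu⟩
    choose! F U hF hU using hnx
    let φ : ((ℝ × ℝ) × (ℝ × ℝ)) → (ℝ × ℝ) × Bool := fun e =>
      (U e, decide ((U e).2 < yv (F e) (U e).1))
    have hc : (V ×ˢ (Finset.univ : Finset Bool)).card = 2 * V.card := by
      rw [Finset.card_product]
      simp
      ring
    rw [← hc]
    apply Finset.card_le_card_of_injOn φ
    · intro e he
      have he' : e ∈ B := Finset.mem_coe.1 he
      exact Finset.mem_coe.2 (Finset.mem_product.2 ⟨(hU e he').1.1, Finset.mem_univ _⟩)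
    · intro e he f hf hef
      have he' : e ∈ B := Finset.mem_coe.1 he
      have hf' : f ∈ B := Finset.mem_coe.1 hf
      have heE := (mem_filter.1 he').1
      have hfE := (mem_filter.1 hf').1
      simp only [φ, Prod.mk.injEq, decide_eq_decide] at hef
      obtain ⟨huu, hside⟩ := hef
      have hUe := hU e he'
      have hUf := hU f hf'
      rw [← huu] at hUf hside
      have k1 := yv_lt_of (hF e he').1.2.1 (hF e he').1.2.2 hUe.1.2.1
      have k2 := yv_lt_of (hF f hf').1.2.1 (hF f hf').1.2.2 hUf.1.2.1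
      have e5 := hUe.1.2.2.2.2.1
      have e6 := hUe.1.2.2.2.2.2
      have f5 := hUf.1.2.2.2.2.1
      have f6 := hUf.1.2.2.2.2.2
      have hb : yv e (U e).1 < yv (F f) (U e).1 ∧ yv f (U e).1 < yv (F e) (U e).1 := by
        by_cases hs : (U e).2 < yv (F e) (U e).1
        · have hs' := hside.1 hs
          exact ⟨by linarith, by linarith⟩
        · have hs' : ¬ (U e).2 < yv (F f) (U e).1 := fun h => hs (hside.2 h)
          push Not at hs hs'
          exact ⟨by linarith, by linarith⟩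
      rcases le_total e.1.1 f.1.1 with h | h
      · exact wedge_inj_aux hE hN heE hfE (hF e he') (hF f hf') hUe hUf hb.1 hb.2 h
      · exact (wedge_inj_aux hE hN hfE heE (hF f hf') (hF e he') hUf hUe hb.2 hb.1 h).symm
  omega

/-- linear form: if every crossing pair is listed in `C` (in one of the two orders) then
`|E| ≤ 3 |V| + |C|` -/
theorem cross_linear (V : Finset (ℝ × ℝ)) (E : Finset ((ℝ × ℝ) × (ℝ × ℝ)))
    (hE : EdgeSet V E) (C : Finset (((ℝ × ℝ) × (ℝ × ℝ)) × ((ℝ × ℝ) × (ℝ × ℝ))))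
    (hC : ∀ e ∈ E, ∀ f ∈ E, e ≠ f → Cr e f → (e, f) ∈ C ∨ (f, e) ∈ C) :
    E.card ≤ 3 * V.card + C.card := by
  classical
  have h1 : (E \ C.image Prod.fst).card ≤ 3 * V.card := by
    apply planar V
    · intro e he
      exact hE e (mem_sdiff.1 he).1
    · intro e he f hf hne hcr
      obtain ⟨he1, he2⟩ := mem_sdiff.1 he
      obtain ⟨hf1, hf2⟩ := mem_sdiff.1 hf
      rcases hC e he1 f hf1 hne hcr with h | h
      · exact he2 (mem_image.2 ⟨_, h, rfl⟩)
      · exact hf2 (mem_image.2 ⟨_, h, rfl⟩)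
  have h2 : E.card - (C.image Prod.fst).card ≤ (E \ C.image Prod.fst).card :=
    Finset.le_card_sdiff _ _
  have h3 : (C.image Prod.fst).card ≤ C.card := card_image_le
  omega

/-- binomial weights: the weight of the sets containing `T` -/
lemma weight_sup {α : Type*} [DecidableEq α] (V T : Finset α) (hT : T ⊆ V) (p : ℝ) :
    ∑ S ∈ V.powerset, p ^ S.card * (1 - p) ^ (V \ S).card * (if T ⊆ S then 1 else 0)
      = p ^ T.card := by
  have h := Finset.prod_add (fun _ : α => p) (fun v : α => if v ∈ T then (0 : ℝ) else 1 - p) V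
  have hl : ∏ v ∈ V, (p + (if v ∈ T then (0 : ℝ) else 1 - p)) = p ^ T.card := by
    have : ∀ v ∈ V, (p + (if v ∈ T then (0 : ℝ) else 1 - p)) = if v ∈ T then p else 1 := by
      intro v _
      split_ifs <;> ring
    rw [Finset.prod_congr rfl this, ← Finset.prod_filter]
    have hf : V.filter (fun v => v ∈ T) = T := by
      ext v
      simp only [mem_filter]
      exact ⟨fun h => h.2, fun h => ⟨hT h, h⟩⟩
    rw [hf, Finset.prod_const]
  rw [hl] at h
  rw [h]
  apply Finset.sum_congr rfl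
  intro S hS
  rw [Finset.prod_const]
  have hSV := mem_powerset.1 hS
  by_cases hTS : T ⊆ S
  · rw [if_pos hTS, mul_one]
    congr 1
    rw [Finset.prod_congr rfl (g := fun _ => 1 - p)]
    · rw [Finset.prod_const]
    · intro v hv
      rw [if_neg (fun hvT => (mem_sdiff.1 hv).2 (hTS hvT))]
  · rw [if_neg hTS, mul_zero]
    obtain ⟨v, hvT, hvS⟩ := Finset.not_subset.1 hTS
    rw [Finset.prod_eq_zero (mem_sdiff.2 ⟨hT hvT, hvS⟩) (by rw [if_pos hvT]), mul_zero]

/-- two crossing edges have four different ends -/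
lemma cross_ends {V : Finset (ℝ × ℝ)} (hV : GP V) {e f : (ℝ × ℝ) × (ℝ × ℝ)}
    (he : e.1 ∈ V ∧ e.2 ∈ V ∧ e.1.1 < e.2.1) (hf : f.1 ∈ V ∧ f.2 ∈ V ∧ f.1.1 < f.2.1)
    (hne : e ≠ f) (h : Cr e f) :
    (({e.1, e.2, f.1, f.2} : Finset (ℝ × ℝ))).card = 4 := by
  obtain ⟨x, h1, h2, h3, h4, h5⟩ := h
  have hee : e.1 ≠ e.2 := fun hh => by have := he.2.2; rw [hh] at this; exact lt_irrefl _ this
  have hff : f.1 ≠ f.2 := fun hh => by have := hf.2.2; rw [hh] at this; exact lt_irrefl _ this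
  -- a common point `(z, yv e z) = (z, yv f z)` with `z ≠ x` makes the lines equal
  have hline : ∀ z, z ≠ x → yv e z = yv f z → ∀ t, yv e t = yv f t := by
    intro z hz hzz t
    have s : sl e = sl f := by
      have q1 : yv e x - yv e z = sl e * (x - z) := by unfold yv; ring
      have q2 : yv f x - yv f z = sl f * (x - z) := by unfold yv; ring
      have q3 : sl e * (x - z) = sl f * (x - z) := by rw [← q1, ← q2, h5, hzz]
      exact mul_right_cancel₀ (sub_ne_zero.2 hz.symm) q3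
    have q1 : yv e t = yv e x + sl e * (t - x) := by unfold yv; ring
    have q2 : yv f t = yv f x + sl f * (t - x) := by unfold yv; ring
    rw [q1, q2, h5, s]
  have key : ∀ t, yv e t = yv f t → t ≠ x → False := by
    intro t ht htx
    have hl := hline t htx ht
    -- f.1 and f.2 lie on the line of e
    have g1 : f.1 = e.1 ∨ f.1 = e.2 := by
      have hne' : f.1.2 = yv e f.1.1 := by rw [hl, yv_left]
      by_contra hcon
      push Not at hcon
      apply hV e.1 he.1 e.2 he.2.1 f.1 hf.1 hee hcon.2.symm hcon.1.symm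
      unfold det3
      rw [hne']
      have : e.2.1 - e.1.1 ≠ 0 := (sub_pos.2 he.2.2).ne'
      unfold yv sl
      field_simp
      ring
    have g2 : f.2 = e.1 ∨ f.2 = e.2 := by
      have hne' : f.2.2 = yv e f.2.1 := by rw [hl, yv_right hf.2.2]
      by_contra hcon
      push Not at hcon
      apply hV e.1 he.1 e.2 he.2.1 f.2 hf.2.1 hee hcon.2.symm hcon.1.symm
      unfold det3
      rw [hne']
      have : e.2.1 - e.1.1 ≠ 0 := (sub_pos.2 he.2.2).ne'
      unfold yv sl
      field_simp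
      ring
    rcases g1 with g1 | g1
    · rcases g2 with g2 | g2
      · exact hff (g1.trans g2.symm)
      · exact hne (Prod.ext g1.symm g2.symm)
    · have : f.1.1 = e.2.1 := by rw [g1]
      linarith
  have n1 : e.1 ≠ f.1 := by
    intro hh
    apply key e.1.1 _ h1.ne
    rw [yv_left]
    have : e.1.1 = f.1.1 := by rw [hh]
    rw [this, yv_left, hh]
  have n2 : e.2 ≠ f.2 := by
    intro hh
    apply key e.2.1 _ h2.ne'
    rw [yv_right he.2.2]
    have : e.2.1 = f.2.1 := by rw [hh]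
    rw [this, yv_right hf.2.2, hh]
  have n3 : e.1 ≠ f.2 := by
    intro hh
    have : e.1.1 = f.2.1 := by rw [hh]
    linarith
  have n4 : e.2 ≠ f.1 := by
    intro hh
    have : e.2.1 = f.1.1 := by rw [hh]
    linarith
  rw [Finset.card_insert_of_notMem, Finset.card_insert_of_notMem,
    Finset.card_insert_of_notMem, Finset.card_singleton]
  · simpa using hff
  · simp only [mem_insert, mem_singleton, not_or]
    exact ⟨n4, n2⟩
  · simp only [mem_insert, mem_singleton, not_or]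
    exact ⟨hee, n1, n3⟩

/-- averaged form: for every `p ∈ [0, 1]`, `p² |E| ≤ 3 p |V| + p⁴ |C|` -/
theorem cross_avg (V : Finset (ℝ × ℝ)) (hV : GP V) (E : Finset ((ℝ × ℝ) × (ℝ × ℝ)))
    (hE : EdgeSet V E) (C : Finset (((ℝ × ℝ) × (ℝ × ℝ)) × ((ℝ × ℝ) × (ℝ × ℝ))))
    (hC : ∀ e ∈ E, ∀ f ∈ E, e ≠ f → Cr e f → (e, f) ∈ C ∨ (f, e) ∈ C) (p : ℝ)
    (hp : 0 ≤ p) (hp1 : p ≤ 1) :
    p ^ 2 * E.card ≤ 3 * (p * V.card) + p ^ 4 * C.card := by
  classical
  -- only real crossing pairs count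
  set C' := C.filter (fun c => c.1 ∈ E ∧ c.2 ∈ E ∧ c.1 ≠ c.2 ∧ Cr c.1 c.2) with hC'
  have hCC : (C'.card : ℝ) ≤ C.card := by exact_mod_cast card_filter_le _ _
  have hC2 : ∀ e ∈ E, ∀ f ∈ E, e ≠ f → Cr e f → (e, f) ∈ C' ∨ (f, e) ∈ C' := by
    intro e he f hf hne hcr
    rcases hC e he f hf hne hcr with h | h
    · left; simp only [hC', mem_filter]; exact ⟨h, he, hf, hne, hcr⟩
    · right; simp only [hC', mem_filter]; exact ⟨h, hf, he, hne.symm, hcr.symm⟩
  let ES : Finset (ℝ × ℝ) → Finset ((ℝ × ℝ) × (ℝ × ℝ)) := fun S =>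
    E.filter (fun e => ({e.1, e.2} : Finset (ℝ × ℝ)) ⊆ S)
  let CS : Finset (ℝ × ℝ) → Finset (((ℝ × ℝ) × (ℝ × ℝ)) × ((ℝ × ℝ) × (ℝ × ℝ))) := fun S =>
    C'.filter (fun c => ({c.1.1, c.1.2, c.2.1, c.2.2} : Finset (ℝ × ℝ)) ⊆ S)
  have hS : ∀ S, ((ES S).card : ℝ) ≤ 3 * S.card + (CS S).card := by
    intro S
    have : (ES S).card ≤ 3 * S.card + (CS S).card := by
      apply cross_linear S (ES S)
      · intro e he
        obtain ⟨h1, h2⟩ := mem_filter.1 he
        exact ⟨h2 (by simp), h2 (by simp), (hE e h1).2.2⟩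
      · intro e he f hf hne hcr
        obtain ⟨h1, h2⟩ := mem_filter.1 he
        obtain ⟨h3, h4⟩ := mem_filter.1 hf
        rcases hC2 e h1 f h3 hne hcr with h | h
        · left
          refine mem_filter.2 ⟨h, ?_⟩
          intro v hv
          simp only [mem_insert, mem_singleton] at hv
          rcases hv with hv | hv | hv | hv
          · exact h2 (by simp [hv])
          · exact h2 (by simp [hv])
          · exact h4 (by simp [hv])
          · exact h4 (by simp [hv])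
        · right
          refine mem_filter.2 ⟨h, ?_⟩
          intro v hv
          simp only [mem_insert, mem_singleton] at hv
          rcases hv with hv | hv | hv | hv
          · exact h4 (by simp [hv])
          · exact h4 (by simp [hv])
          · exact h2 (by simp [hv])
          · exact h2 (by simp [hv])
    exact_mod_cast this
  let w : Finset (ℝ × ℝ) → ℝ := fun S => p ^ S.card * (1 - p) ^ (V \ S).card
  have hw : ∀ S, 0 ≤ w S := fun S =>
    mul_nonneg (pow_nonneg hp _) (pow_nonneg (by linarith) _)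
  have hE1 : ∑ S ∈ V.powerset, w S * (ES S).card = p ^ 2 * E.card := by
    have : ∀ S, ((ES S).card : ℝ) = ∑ e ∈ E, if ({e.1, e.2} : Finset (ℝ × ℝ)) ⊆ S then 1 else 0 := by
      intro S
      simp only [ES, Finset.sum_boole]
    simp only [this, Finset.mul_sum]
    rw [Finset.sum_comm]
    have h2 : ∀ e ∈ E, ∑ S ∈ V.powerset,
        w S * (if ({e.1, e.2} : Finset (ℝ × ℝ)) ⊆ S then 1 else 0) = p ^ 2 := by
      intro e he
      obtain ⟨h1, h2, h3⟩ := hE e he
      have hne : e.1 ≠ e.2 := fun hh => by rw [hh] at h3; exact lt_irrefl _ h3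
      have := weight_sup V {e.1, e.2} (by
        intro v hv
        simp only [mem_insert, mem_singleton] at hv
        rcases hv with hv | hv <;> rw [hv] <;> assumption) p
      rw [Finset.card_pair hne] at this
      exact this
    rw [Finset.sum_congr rfl h2, Finset.sum_const, nsmul_eq_mul]
    ring
  have hV1 : ∑ S ∈ V.powerset, w S * (S.card : ℝ) = p * V.card := by
    have : ∀ S ∈ V.powerset, w S * (S.card : ℝ) =
        ∑ v ∈ V, w S * (if ({v} : Finset (ℝ × ℝ)) ⊆ S then 1 else 0) := by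
      intro S hS'
      rw [← Finset.mul_sum, Finset.sum_boole]
      congr 3
      ext v
      simp only [mem_filter, singleton_subset_iff]
      exact ⟨fun h => ⟨mem_powerset.1 hS' h, h⟩, fun h => h.2⟩
    rw [Finset.sum_congr rfl this, Finset.sum_comm]
    have h2 : ∀ v ∈ V, ∑ S ∈ V.powerset,
        w S * (if ({v} : Finset (ℝ × ℝ)) ⊆ S then 1 else 0) = p := by
      intro v hv
      have := weight_sup V {v} (by simpa using hv) p
      rw [Finset.card_singleton, pow_one] at this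
      exact this
    rw [Finset.sum_congr rfl h2, Finset.sum_const, nsmul_eq_mul]
    ring
  have hC1 : ∑ S ∈ V.powerset, w S * (CS S).card = p ^ 4 * C'.card := by
    have : ∀ S, ((CS S).card : ℝ) = ∑ c ∈ C',
        if ({c.1.1, c.1.2, c.2.1, c.2.2} : Finset (ℝ × ℝ)) ⊆ S then 1 else 0 := by
      intro S
      simp only [CS, Finset.sum_boole]
    simp only [this, Finset.mul_sum]
    rw [Finset.sum_comm]
    have h2 : ∀ c ∈ C', ∑ S ∈ V.powerset,
        w S * (if ({c.1.1, c.1.2, c.2.1, c.2.2} : Finset (ℝ × ℝ)) ⊆ S then 1 else 0)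
          = p ^ 4 := by
      intro c hc
      obtain ⟨_, h1, h2, h3, h4⟩ := mem_filter.1 hc
      have q1 := hE _ h1
      have q2 := hE _ h2
      have := weight_sup V {c.1.1, c.1.2, c.2.1, c.2.2} (by
        intro v hv
        simp only [mem_insert, mem_singleton] at hv
        rcases hv with hv | hv | hv | hv
        · rw [hv]; exact q1.1
        · rw [hv]; exact q1.2.1
        · rw [hv]; exact q2.1
        · rw [hv]; exact q2.2.1) p
      rw [cross_ends hV q1 q2 h3 h4] at this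
      exact this
    rw [Finset.sum_congr rfl h2, Finset.sum_const, nsmul_eq_mul]
    ring
  have hsum : ∑ S ∈ V.powerset, w S * (ES S).card ≤
      ∑ S ∈ V.powerset, (3 * (w S * (S.card : ℝ)) + w S * (CS S).card) := by
    apply Finset.sum_le_sum
    intro S _
    have := mul_le_mul_of_nonneg_left (hS S) (hw S)
    linarith
  rw [Finset.sum_add_distrib, ← Finset.mul_sum, hE1, hV1, hC1] at hsum
  have : p ^ 4 * (C'.card : ℝ) ≤ p ^ 4 * C.card :=
    mul_le_mul_of_nonneg_left hCC (by positivity)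
  linarith

/-- **the crossing lemma** (straight edges, constant `64`) -/
theorem crossing_lemma (V : Finset (ℝ × ℝ)) (hV : GP V) (E : Finset ((ℝ × ℝ) × (ℝ × ℝ)))
    (hE : EdgeSet V E) (C : Finset (((ℝ × ℝ) × (ℝ × ℝ)) × ((ℝ × ℝ) × (ℝ × ℝ))))
    (hC : ∀ e ∈ E, ∀ f ∈ E, e ≠ f → Cr e f → (e, f) ∈ C ∨ (f, e) ∈ C)
    (h4 : 4 * V.card ≤ E.card) :
    (E.card : ℝ) ^ 3 ≤ 64 * (V.card : ℝ) ^ 2 * C.card := by
  rcases Nat.eq_zero_or_pos E.card with h0 | hpos
  · rw [h0]; simp; positivity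
  have hep : (0 : ℝ) < E.card := by exact_mod_cast hpos
  have h4' : 4 * (V.card : ℝ) ≤ E.card := by exact_mod_cast h4
  set e : ℝ := (E.card : ℝ) with he
  set n : ℝ := (V.card : ℝ) with hnn
  set c : ℝ := (C.card : ℝ) with hcc
  have hn : 0 ≤ n := Nat.cast_nonneg _
  rcases hn.eq_or_lt with hn0 | hn0
  · -- no vertices: no edges
    exfalso
    have hV0 : V.card = 0 := by rw [hnn] at hn0; exact_mod_cast hn0.symm
    obtain ⟨x, hx⟩ := Finset.card_pos.1 hpos
    have := (hE x hx).1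
    rw [Finset.card_eq_zero.1 hV0] at this
    simp at this
  have havg := cross_avg V hV E hE C hC (4 * n / e) (by positivity)
    (by rw [div_le_one hep]; exact h4')
  have havg' : (4 * n / e) ^ 2 * e ≤ 3 * ((4 * n / e) * n) + (4 * n / e) ^ 4 * c := havg
  have e1 : (4 * n / e) ^ 2 * e = 16 * n ^ 2 / e := by field_simp; ring
  have e2 : 3 * ((4 * n / e) * n) = 12 * n ^ 2 / e := by field_simp; ring
  have e3 : (4 * n / e) ^ 4 * c = 256 * n ^ 4 * c / e ^ 4 := by field_simp; ring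
  rw [e1, e2, e3] at havg'
  have h5 : 4 * n ^ 2 / e ≤ 256 * n ^ 4 * c / e ^ 4 := by
    have : 16 * n ^ 2 / e = 12 * n ^ 2 / e + 4 * n ^ 2 / e := by ring
    linarith
  rw [div_le_div_iff₀ hep (by positivity)] at h5
  -- 4 n^2 e^4 ≤ 256 n^4 c e
  have h6 : (4 * n ^ 2 * e) * e ^ 3 ≤ (4 * n ^ 2 * e) * (64 * n ^ 2 * c) := by
    nlinarith [h5]
  exact le_of_mul_le_mul_left h6 (by positivity)

end Vale.Agent.P065.UB350
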